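import Mathlib
import Vale.Agent.P088.Cyl.Extend

/-!
# P088: joint determination of a layered metric and unitary connection from one end of a cylinder
-/

open MeasureTheory Set
open Vale.Agent.P088

namespace Vale.Agent.Results.P088.LayeredJointUniqueness

/-- On cylinders `[0, L] × (ℝ/ℤ)^d`, `d ≥ 2`, the data on the end `t = 0` determine the length, the
metric `dt² + G(t)` and the `u(N)` connection `∑ j, a_j(t) dx_j`. -/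
theorem result (d N : ℕ) (hd : 2 ≤ d) (hN : 1 ≤ N) (L₁ L₂ : ℝ) (hL₁ : 0 < L₁) (hL₂ : 0 < L₂)
    (G₁ G₂ : ℝ → Matrix (Fin d) (Fin d) ℝ)
    (hG₁ : ∀ i j, ContDiff ℝ 2 fun t => G₁ t i j) (hG₂ : ∀ i j, ContDiff ℝ 2 fun t => G₂ t i j)
    (hp₁ : ∀ t ∈ Icc 0 L₁, (G₁ t).PosDef) (hp₂ : ∀ t ∈ Icc 0 L₂, (G₂ t).PosDef)
    (a₁ a₂ : Fin d → ℝ → Op N) (ha₁ : ∀ j, ContDiff ℝ 1 (a₁ j)) (ha₂ : ∀ j, ContDiff ℝ 1 (a₂ j))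
    (hs₁ : ∀ j, ∀ t ∈ Icc 0 L₁, star (a₁ j t) = -a₁ j t)
    (hs₂ : ∀ j, ∀ t ∈ Icc 0 L₂, star (a₂ j t) = -a₂ j t)
    (hS : SameData L₁ G₁ a₁ L₂ G₂ a₂) :
    L₁ = L₂ ∧ ∀ t ∈ Icc 0 L₁, G₁ t = G₂ t ∧ ∀ j, a₁ j t = a₂ j t := by
  have : NeZero N := ⟨by omega⟩
  obtain ⟨g₁, hgL₁, he₁, hE₁⟩ := exists_geo hL₁ hG₁ hp₁ ha₁ hs₁
  obtain ⟨g₂, hgL₂, he₂, hE₂⟩ := exists_geo hL₂ hG₂ hp₂ ha₂ hs₂
  obtain ⟨hL, hcoef⟩ := Geo.unique hd (g₁ := g₁) (g₂ := g₂) fun f hf hper => by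
    rw [hE₁ f, hE₂ f]
    exact hS f hf hper
  rw [hgL₁, hgL₂] at hL
  refine ⟨hL, fun t ht => ?_⟩
  have ht₂ : t ∈ Icc 0 L₂ := hL ▸ ht
  obtain ⟨e, e'⟩ := hcoef t (by rwa [hgL₁])
  refine ⟨?_, fun j => ?_⟩
  · rw [← (he₁ t ht).1, ← (he₂ t ht₂).1]; exact e
  · rw [← (he₁ t ht).2 j, ← (he₂ t ht₂).2 j]; exact e' j

end Vale.Agent.Results.P088.LayeredJointUniqueness
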